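import Vale.Agent.P092.H200.Sheet

/-!
P092, TEAM C, block [C-MOD] (helper307), part 1: germs, ergodicity for closed subspaces, (A1) and
full support (E') for the residue algebra in the letters of `H200.Sheet`.
-/

set_option linter.all false

namespace Vale.Agent.P092.H307

open TopologicalSpace Filter Topology Vale.Agent.P092.H820 Vale.Agent.P092.H200.Sheet

/-- Induction over a compact space with clopen sets. -/
theorem clopen_ind {X : Type} [TopologicalSpace X] [CompactSpace X]
    {Q : Clopens X → Prop} (hloc : ∀ x, ∃ V : Clopens X, x ∈ V ∧ Q V)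
    (hle : ∀ V V' : Clopens X, V' ≤ V → Q V → Q V')
    (hun : ∀ V V' : Clopens X, Disjoint V V' → Q V → Q V' → Q (V ⊔ V')) (hbot : Q ⊥) : Q ⊤ := by
  have key : ∃ V : Clopens X, (Set.univ : Set X) ⊆ (V : Set X) ∧ Q V := by
    refine isCompact_univ.induction_on (p := fun S => ∃ V : Clopens X, S ⊆ (V : Set X) ∧ Q V)
      ?_ ?_ ?_ ?_
    · exact ⟨⊥, Set.empty_subset _, hbot⟩
    · rintro S T hST ⟨V, h1, h2⟩
      exact ⟨V, hST.trans h1, h2⟩
    · rintro S T ⟨V, h1, h2⟩ ⟨V', h3, h4⟩
      refine ⟨V ⊔ (V' ⊓ Vᶜ), ?_, hun _ _ ?_ h2 (hle _ _ inf_le_left h4)⟩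
      · intro x hx
        by_cases hxV : x ∈ V
        · exact Or.inl hxV
        · rcases hx with hx | hx
          · exact absurd (h1 hx) hxV
          · exact Or.inr ⟨h3 hx, hxV⟩
      · exact disjoint_compl_right.mono_right inf_le_right
    · intro x _
      obtain ⟨V, hx, hV⟩ := hloc x
      exact ⟨V, mem_nhdsWithin_of_mem_nhds (V.isClopen.isOpen.mem_nhds hx), V, subset_rfl, hV⟩
  obtain ⟨V, h1, h2⟩ := key
  have : V = ⊤ := by
    ext x
    exact ⟨fun _ => trivial, fun _ => h1 trivial⟩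
  rwa [this] at h2

section

variable {E : Type} [NormedAddCommGroup E] [InnerProductSpace ℂ E] [CompleteSpace E]

/-- The projection onto a reducing subspace commutes with the operator. -/
theorem proj_comm (M : Submodule ℂ E) [M.HasOrthogonalProjection] (T : E →L[ℂ] E)
    (h1 : ∀ v ∈ M, T v ∈ M) (h2 : ∀ v ∈ M, star T v ∈ M) :
    T * M.starProjection = M.starProjection * T := by
  ext v
  change T (M.starProjection v) = M.starProjection (T v)
  refine (Submodule.eq_starProjection_of_mem_orthogonal (h1 _ (M.starProjection_apply_mem v))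
    ?_).symm
  rw [← map_sub, Submodule.mem_orthogonal]
  intro m hm
  have h3 : inner ℂ (star T m) (v - M.starProjection v) = 0 :=
    (Submodule.mem_orthogonal _ _).1 (Submodule.sub_starProjection_mem_orthogonal v) _ (h2 m hm)
  rwa [ContinuousLinearMap.star_eq_adjoint, ContinuousLinearMap.adjoint_inner_left] at h3

end

variable {Γ Y G₀ H₀ K : Type} [Group Γ] [TopologicalSpace Y] [MulAction Γ Y]
  [ContinuousConstSMul Γ Y] [Group G₀] [TopologicalSpace G₀] [Group H₀]
  [NormedAddCommGroup K] [InnerProductSpace ℂ K] [CompleteSpace K]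

variable {lam : Γ →* (K →L[ℂ] K)} {E : Clopens Y → (K →L[ℂ] K)} {S : Set (K →L[ℂ] K)}
  {π : H₀ →* (K →L[ℂ] K)} {c : Γ → Y → G₀} {U V : Subgroup G₀} {a b f : G₀ → (K →L[ℂ] K)}

/-- The level free form of the conditions: germ equivariance. -/
structure Germ (lam : Γ →* (K →L[ℂ] K)) (E : Clopens Y → (K →L[ℂ] K)) (S : Set (K →L[ℂ] K))
    (c : Γ → Y → G₀) (a : G₀ → (K →L[ℂ] K)) : Prop where
  comm : ∀ g, ∀ s ∈ S, s * a g = a g * s
  commE : ∀ g A, E A * a g = a g * E A
  eqv : ∀ γ g y, ∃ A : Clopens Y, y ∈ A ∧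
    lam γ * (a g * E A) * lam γ⁻¹ = a (c γ y * g) * E (tr γ A)

theorem germ_of_sh [IsTopologicalGroup G₀] (h : Dat lam E S π c)
    (hU : IsOpen (U : Set G₀)) (ha : Sh lam E S c U a) : Germ lam E S c a where
  comm := ha.comm
  commE := ha.commE
  eqv γ g y := by
    have hcl : IsClopen (U : Set G₀) := ⟨U.isClosed_of_isOpen hU, hU⟩
    have hct : Continuous fun y' => (c γ y * g)⁻¹ * (c γ y' * g) :=
      continuous_const.mul ((h.c_cont γ).mul continuous_const)
    refine ⟨⟨_, hcl.preimage hct⟩, ?_, ha.eqv γ g _ _ fun y' hy' => hy'⟩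
    change (c γ y * g)⁻¹ * (c γ y * g) ∈ U
    rw [inv_mul_cancel]
    exact U.one_mem

/-- the identity of `Germ.eqv` on a smaller set -/
theorem Germ.eqv_le (h : Dat lam E S π c) (ha : Germ lam E S c a) {γ : Γ} {g g' : G₀}
    {A B : Clopens Y} (hBA : B ≤ A)
    (hA : lam γ * (a g * E A) * lam γ⁻¹ = a g' * E (tr γ A)) :
    lam γ * (a g * E B) * lam γ⁻¹ = a g' * E (tr γ B) := by
  have h1 : a g * E B = a g * E A * E B := by rw [mul_assoc, h.cpv.le_right hBA]
  have h2 : E (tr γ A) * E (tr γ B) = E (tr γ B) := h.cpv.le_right (tr_mono hBA)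
  calc lam γ * (a g * E B) * lam γ⁻¹ = lam γ * (a g * E A) * 1 * E B * lam γ⁻¹ := by
        rw [h1]; simp only [mul_assoc, one_mul]
    _ = lam γ * (a g * E A) * (lam γ⁻¹ * lam γ) * E B * lam γ⁻¹ := by rw [pi_inv_mul]
    _ = (lam γ * (a g * E A) * lam γ⁻¹) * (lam γ * E B * lam γ⁻¹) := by
        simp only [mul_assoc]
    _ = a g' * (E (tr γ A) * E (tr γ B)) := by rw [hA, h.lam_E, mul_assoc]
    _ = _ := by rw [h2]

theorem lam_E' (h : Dat lam E S π c) (γ : Γ) (A : Clopens Y) :
    lam γ * E A = E (tr γ A) * lam γ := by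
  rw [← h.lam_E γ A]
  simp only [mul_assoc]
  rw [pi_inv_mul, mul_one]

/-- `a (g') λ v = λ a (g) v` on the range of `E A` -/
theorem move (h : Dat lam E S π c) {γ : Γ} {g g' : G₀} {A : Clopens Y}
    (hA : lam γ * (a g * E A) * lam γ⁻¹ = a g' * E (tr γ A)) (v : K) :
    a g' (lam γ (E A v)) = lam γ (a g (E A v)) := by
  have h1 : a g' * (lam γ * E A) = lam γ * (a g * E A) := by
    rw [lam_E' h, ← mul_assoc, ← hA, mul_assoc, pi_inv_mul, mul_one]
  exact DFunLike.congr_fun h1 v

/-- (A1) a closed subspace invariant under `S` and `λ(Γ)` is trivial. -/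
theorem sub_eq (h : Dat lam E S π c) (M : Submodule ℂ K) (hMc : IsClosed (M : Set K))
    (hS : ∀ s ∈ S, ∀ v ∈ M, s v ∈ M) (hL : ∀ γ, ∀ v ∈ M, lam γ v ∈ M) (h0 : ∃ v ∈ M, v ≠ 0) :
    M = ⊤ := by
  haveI : CompleteSpace M := hMc.completeSpace_coe
  obtain ⟨z, hz⟩ := h.erg M.starProjection
    (fun s hs => proj_comm M s (hS s hs) (hS _ (h.S_star s hs)))
    (fun γ => proj_comm M (lam γ) (hL γ) (by rw [h.lam_star]; exact hL γ⁻¹))
  obtain ⟨v, hv, hv0⟩ := h0
  have h1 : M.starProjection v = v := Submodule.starProjection_eq_self_iff.2 hv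
  rw [hz] at h1
  have h2 : z = 1 := by
    have h3 : (z - 1) • v = 0 := by
      rw [sub_smul, one_smul, sub_eq_zero]
      simpa using h1
    rcases smul_eq_zero.1 h3 with h3 | h3
    · exact sub_eq_zero.1 h3
    · exact absurd h3 hv0
  rw [h2, one_smul] at hz
  rw [eq_top_iff]
  intro w _
  have := M.starProjection_apply_mem w
  rw [hz] at this
  exact this

/-- Membership in an `E`-invariant subspace is local. -/
theorem mem_of_local [CompactSpace Y] (h : Dat lam E S π c) (M : Submodule ℂ K)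
    (hM : ∀ V, ∀ v ∈ M, E V v ∈ M) (v : K) (hloc : ∀ x, ∃ V : Clopens Y, x ∈ V ∧ E V v ∈ M) :
    v ∈ M := by
  have key : E ⊤ v ∈ M := by
    refine clopen_ind (Q := fun V => E V v ∈ M) hloc ?_ ?_ ?_
    · intro V V' hle hV
      have h1 : E V' v = E V' (E V v) := by
        have := DFunLike.congr_fun (h.cpv.le_left hle) v
        exact this.symm
      rw [h1]
      exact hM _ _ hV
    · intro V V' hd h1 h2
      rw [h.cpv.add hd]
      exact M.add_mem h1 h2
    · rw [h.cpv.bot]
      exact M.zero_mem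
  rw [h.cpv.top] at key
  exact key

/-- the span of the ranges of the values of a function -/
def ranges (f : G₀ → (K →L[ℂ] K)) : Submodule ℂ K :=
  Submodule.span ℂ {v | ∃ g w, v = f g w}

omit [TopologicalSpace G₀] in
theorem ranges_inv {f : G₀ → (K →L[ℂ] K)} {T : K →L[ℂ] K} (hT : ∀ g, T * f g = f g * T) :
    ∀ v ∈ ranges f, T v ∈ ranges f := by
  intro v hv
  refine Submodule.span_induction (p := fun v _ => T v ∈ ranges f) ?_ ?_ ?_ ?_ hv
  · rintro _ ⟨g, w, rfl⟩
    have h1 : T (f g w) = f g (T w) := DFunLike.congr_fun (hT g) w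
    rw [h1]
    exact Submodule.subset_span ⟨g, _, rfl⟩
  · rw [map_zero]; exact Submodule.zero_mem _
  · intro x y _ _ hx hy
    rw [map_add]; exact Submodule.add_mem _ hx hy
  · intro z x _ hx
    rw [map_smul]; exact Submodule.smul_mem _ _ hx

theorem ranges_lam [CompactSpace Y] (h : Dat lam E S π c) (hf : Germ lam E S c f) (γ : Γ) :
    ∀ v ∈ ranges f, lam γ v ∈ ranges f := by
  intro v hv
  refine Submodule.span_induction (p := fun v _ => lam γ v ∈ ranges f) ?_ ?_ ?_ ?_ hv
  · rintro _ ⟨g, w, rfl⟩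
    refine mem_of_local h _ (fun V => ranges_inv fun g => hf.commE g V) _ fun x => ?_
    obtain ⟨A, hx, hA⟩ := hf.eqv γ g (γ⁻¹ • x)
    refine ⟨tr γ A, hx, ?_⟩
    have h1 : E (tr γ A) * (lam γ * f g) = f (c γ (γ⁻¹ • x) * g) * (E (tr γ A) * lam γ) := by
      calc E (tr γ A) * (lam γ * f g) = lam γ * (E A * f g) := by
            rw [← mul_assoc, ← lam_E' h, mul_assoc]
        _ = lam γ * (f g * E A) * (lam γ⁻¹ * lam γ) := by rw [hf.commE, pi_inv_mul, mul_one]
        _ = (lam γ * (f g * E A) * lam γ⁻¹) * lam γ := by simp only [mul_assoc]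
        _ = _ := by rw [hA, mul_assoc]
    have h3 : E (tr γ A) (lam γ (f g w)) = f (c γ (γ⁻¹ • x) * g) (E (tr γ A) (lam γ w)) :=
      DFunLike.congr_fun h1 w
    rw [h3]
    exact Submodule.subset_span ⟨_, _, rfl⟩
  · rw [map_zero]; exact Submodule.zero_mem _
  · intro x y _ _ hx hy
    rw [map_add]; exact Submodule.add_mem _ hx hy
  · intro z x _ hx
    rw [map_smul]; exact Submodule.smul_mem _ _ hx

/-- **Full support**: the ranges of the values of a nonzero element span a dense subspace. -/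
theorem ranges_dense [CompactSpace Y] (h : Dat lam E S π c) (hf : Germ lam E S c f)
    (hf0 : f ≠ 0) : (ranges f).topologicalClosure = ⊤ := by
  have hcl : ∀ T : K →L[ℂ] K, (∀ v ∈ ranges f, T v ∈ ranges f) →
      ∀ v ∈ (ranges f).topologicalClosure, T v ∈ (ranges f).topologicalClosure := by
    intro T hT v hv
    rw [← SetLike.mem_coe, Submodule.topologicalClosure_coe] at hv ⊢
    exact map_mem_closure T.continuous hv hT
  refine sub_eq h _ (Submodule.isClosed_topologicalClosure _)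
    (fun s hs => hcl s (ranges_inv fun g => hf.comm g s hs))
    (fun γ => hcl _ (ranges_lam h hf γ)) ?_
  obtain ⟨g, hg⟩ : ∃ g, f g ≠ 0 := by
    by_contra hcon
    push Not at hcon
    exact hf0 (funext hcon)
  obtain ⟨w, hw⟩ : ∃ w, f g w ≠ 0 := by
    by_contra hcon
    push Not at hcon
    exact hg (ContinuousLinearMap.ext hcon)
  exact ⟨_, Submodule.le_topologicalClosure _ (Submodule.subset_span ⟨g, w, rfl⟩), hw⟩

/-- an operator killing all values of a nonzero element is zero -/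
theorem eq_zero_of_mul [CompactSpace Y] (h : Dat lam E S π c) (hf : Germ lam E S c f)
    (hf0 : f ≠ 0) {T : K →L[ℂ] K} (hT : ∀ g, T * f g = 0) : T = 0 := by
  have h1 : ∀ v ∈ ranges f, T v = 0 := by
    intro v hv
    refine Submodule.span_induction (p := fun v _ => T v = 0) ?_ ?_ ?_ ?_ hv
    · rintro _ ⟨g, w, rfl⟩
      exact DFunLike.congr_fun (hT g) w
    · rw [map_zero]
    · intro x y _ _ hx hy
      rw [map_add, hx, hy, add_zero]
    · intro z x _ hx
      rw [map_smul, hx, smul_zero]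
  ext v
  have h2 : v ∈ (ranges f).topologicalClosure := by
    rw [ranges_dense h hf hf0]; trivial
  rw [← SetLike.mem_coe, Submodule.topologicalClosure_coe] at h2
  have h3 : (ranges f : Set K) ⊆ {v | T v = 0} := h1
  exact closure_minimal h3 (isClosed_eq T.continuous continuous_const) h2

/-- **(E')**, for every germ equivariant `f ≠ 0` and every function `y`. -/
theorem Eprime [CompactSpace Y] (h : Dat lam E S π c) (hf : Germ lam E S c f) (hf0 : f ≠ 0)
    (y : G₀ → (K →L[ℂ] K)) (hy : ∀ g, y * al g f = 0) : y = 0 := by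
  funext x
  refine eq_zero_of_mul h hf hf0 fun g => ?_
  have := congrFun (hy (x⁻¹ * g)) x
  change y x * f (x * (x⁻¹ * g)) = 0 at this
  rwa [mul_inv_cancel_left] at this

/-- elements of the algebra are germ equivariant -/
theorem germ_of_mem [IsTopologicalGroup G₀] (h : Dat lam E S π c) {Un : ℕ → Subgroup G₀}
    {Wn : ℕ → Subgroup H₀} (hU : Lev Un) (ha : a ∈ h.P Un Wn) : Germ lam E S c a := by
  obtain ⟨n, hn⟩ := (mem_P h).1 ha |>.1.exists
  exact germ_of_sh h (hU.opn n) hn

/-- **(E')** in the letters of `H473.Res.ResH.hE` -/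
theorem hE [IsTopologicalGroup G₀] [CompactSpace Y] (h : Dat lam E S π c)
    {Un : ℕ → Subgroup G₀} {Wn : ℕ → Subgroup H₀} (hU : Lev Un) (hf : f ∈ h.P Un Wn)
    (hf0 : f ≠ 0) (y : G₀ → (K →L[ℂ] K)) (hy : ∀ g, y * al g f = 0) : y = 0 :=
  Eprime h (germ_of_mem h hU hf) hf0 y hy

/-- **(A1)** a constant element is a scalar -/
theorem const_scalar [CompactSpace Y] (h : Dat lam E S π c) (t : K →L[ℂ] K)
    (ht : Germ lam E S c (fun _ => t)) : ∃ z : ℂ, t = z • (1 : K →L[ℂ] K) := by
  refine h.erg t (fun s hs => ht.comm 1 s hs) fun γ => ?_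
  have key : lam γ * (t * E ⊤) * lam γ⁻¹ = t * E (tr γ ⊤) := by
    refine clopen_ind (Q := fun A => lam γ * (t * E A) * lam γ⁻¹ = t * E (tr γ A)) ?_ ?_ ?_ ?_
    · intro y
      obtain ⟨A, hy, hA⟩ := ht.eqv γ 1 y
      exact ⟨A, hy, hA⟩
    · intro A B hBA hA
      exact Germ.eqv_le h ht (g := 1) (g' := 1) hBA hA
    · intro A B hd hA hB
      have hd' : Disjoint (tr γ A) (tr γ B) := by
        rw [disjoint_iff] at hd ⊢
        rw [← tr_inf, hd, tr_bot]
      rw [h.cpv.add hd, tr_sup, h.cpv.add hd', mul_add, mul_add, add_mul, hA, hB, mul_add]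
    · rw [tr_bot, h.cpv.bot, mul_zero, mul_zero, zero_mul]
  rw [tr_top, h.cpv.top, mul_one] at key
  calc lam γ * t = lam γ * t * (lam γ⁻¹ * lam γ) := by rw [pi_inv_mul, mul_one]
    _ = lam γ * t * lam γ⁻¹ * lam γ := by simp only [mul_assoc]
    _ = t * lam γ := by rw [key]

end Vale.Agent.P092.H307
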