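import Vale.Agent.P092.H307.MinPr

/-!
P092, TEAM C, block [C-MOD] (helper307), part 6: `hex` for an element of an arbitrary compact open
level.
-/

set_option linter.all false

namespace Vale.Agent.P092.H307

open TopologicalSpace Filter Topology Vale.Agent.P092.H820 Vale.Agent.P092.H200.Sheet
open Vale.Agent.P092.H175.T1

section card

variable {G₀ : Type} [Group G₀] {U V : Subgroup G₀}

/-- the fibres of `G₀ ⧸ V → G₀ ⧸ U` -/
theorem card_fiber (hVU : V ≤ U) (hfin : V.relIndex U ≠ 0) (r : G₀) (s : Finset (G₀ ⧸ V))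
    (hs : ∀ q ∈ s, r⁻¹ * q.out ∈ U) : s.card ≤ V.relIndex U := by
  classical
  haveI : (V.subgroupOf U).FiniteIndex := ⟨hfin⟩
  haveI : Fintype (U ⧸ V.subgroupOf U) := Fintype.ofFinite _
  have h1 : V.relIndex U = (Finset.univ : Finset (U ⧸ V.subgroupOf U)).card := by
    rw [Finset.card_univ, ← Nat.card_eq_fintype_card]
    rfl
  rw [h1]
  refine Finset.card_le_card_of_injOn
    (fun q => if h : r⁻¹ * q.out ∈ U then ((⟨r⁻¹ * q.out, h⟩ : U) : U ⧸ V.subgroupOf U)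
      else ((1 : U) : U ⧸ V.subgroupOf U)) (fun _ _ => Finset.mem_coe.2 (Finset.mem_univ _)) ?_
  intro q hq q' hq' hqq
  have h2 := hs q hq
  have h3 := hs q' hq'
  simp only [h2, h3, dite_true] at hqq
  rw [QuotientGroup.eq, Subgroup.mem_subgroupOf] at hqq
  have h4 : ((((⟨r⁻¹ * q.out, h2⟩ : U))⁻¹ * (⟨r⁻¹ * q'.out, h3⟩ : U) : U) : G₀) =
      q.out⁻¹ * q'.out := by
    change (r⁻¹ * q.out)⁻¹ * (r⁻¹ * q'.out) = _
    group
  rw [h4, ← QuotientGroup.eq, QuotientGroup.out_eq', QuotientGroup.out_eq'] at hqq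
  exact hqq

/-- sums over the cosets of a smaller subgroup -/
theorem sum_le_of_le (hVU : V ≤ U) (hfin : V.relIndex U ≠ 0) {F : G₀ → ℝ} (h0 : ∀ g, 0 ≤ F g)
    (hF : ∀ g, ∀ u ∈ U, F (g * u) = F g) {C : ℝ}
    (hC : ∀ s : Finset G₀, (∀ g ∈ s, ∀ g' ∈ s, g ≠ g' → g⁻¹ * g' ∉ U) → ∑ g ∈ s, F g ≤ C)
    (s : Finset (G₀ ⧸ V)) : ∑ q ∈ s, F q.out ≤ (V.relIndex U : ℝ) * C := by
  classical
  set φ : G₀ ⧸ V → G₀ := fun q => ((q.out : G₀) : G₀ ⧸ U).out with hφ
  have hmem : ∀ q, (φ q)⁻¹ * q.out ∈ U := by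
    intro q
    rw [← QuotientGroup.eq]
    exact QuotientGroup.out_eq' _
  have hval : ∀ q, F q.out = F (φ q) := by
    intro q
    have h1 : q.out = φ q * ((φ q)⁻¹ * q.out) := by group
    rw [h1, hF _ _ (hmem q)]
  rw [← Finset.sum_fiberwise_of_maps_to (t := s.image φ) (g := φ)
    (fun q hq => Finset.mem_image_of_mem φ hq)]
  have h1 : ∀ r ∈ s.image φ, ∑ q ∈ s with φ q = r, F q.out ≤ (V.relIndex U : ℝ) * F r := by
    intro r _
    have h2 : ∑ q ∈ s with φ q = r, F q.out = ((s.filter fun q => φ q = r).card : ℝ) * F r := by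
      rw [Finset.sum_congr rfl (g := fun _ => F r) fun q hq => by
        rw [hval, (Finset.mem_filter.1 hq).2], Finset.sum_const, nsmul_eq_mul]
    rw [h2]
    refine mul_le_mul_of_nonneg_right ?_ (h0 r)
    refine Nat.cast_le.2 (card_fiber hVU hfin r _ fun q hq => ?_)
    have h3 := hmem q
    rwa [(Finset.mem_filter.1 hq).2] at h3
  refine (Finset.sum_le_sum h1).trans ?_
  rw [← Finset.mul_sum]
  refine mul_le_mul_of_nonneg_left (hC _ ?_) (Nat.cast_nonneg _)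
  intro g hg g' hg' hne hU
  obtain ⟨q, _, rfl⟩ := Finset.mem_image.1 hg
  obtain ⟨q', _, rfl⟩ := Finset.mem_image.1 hg'
  rw [← QuotientGroup.eq] at hU
  have h2 : ((q.out : G₀) : G₀ ⧸ U) = ((q'.out : G₀) : G₀ ⧸ U) := by
    have e1 : ((φ q : G₀) : G₀ ⧸ U) = ((q.out : G₀) : G₀ ⧸ U) := QuotientGroup.out_eq' _
    have e2 : ((φ q' : G₀) : G₀ ⧸ U) = ((q'.out : G₀) : G₀ ⧸ U) := QuotientGroup.out_eq' _
    rw [← e1, ← e2, hU]
  exact hne (congrArg Quotient.out h2)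

/-- an open subgroup has finite index in a compact one -/
theorem relIndex_ne [TopologicalSpace G₀] [IsTopologicalGroup G₀] (hU : IsCompact (U : Set G₀))
    (hV : IsOpen (V : Set G₀)) : V.relIndex U ≠ 0 := by
  haveI : CompactSpace U := isCompact_iff_compactSpace.1 hU
  have h1 : IsOpen ((V.subgroupOf U : Subgroup U) : Set U) := hV.preimage continuous_subtype_val
  haveI : Finite (U ⧸ V.subgroupOf U) := Subgroup.quotient_finite_of_isOpen _ h1
  haveI : (V.subgroupOf U).FiniteIndex := Subgroup.finiteIndex_of_finite_quotient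
  exact Subgroup.FiniteIndex.index_ne_zero (H := V.subgroupOf U)

end card

variable {Γ Y G₀ H₀ K : Type} [Group Γ] [TopologicalSpace Y] [MulAction Γ Y]
  [ContinuousConstSMul Γ Y] [Group G₀] [TopologicalSpace G₀] [Group H₀]
  [NormedAddCommGroup K] [InnerProductSpace ℂ K] [CompleteSpace K]

variable {lam : Γ →* (K →L[ℂ] K)} {E : Clopens Y → (K →L[ℂ] K)} {S : Set (K →L[ℂ] K)}
  {π : H₀ →* (K →L[ℂ] K)} {c : Γ → Y → G₀} {U V : Subgroup G₀} {a : G₀ → (K →L[ℂ] K)}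
  {Un : ℕ → Subgroup G₀} {Wn : ℕ → Subgroup H₀}

/-- **hex** for an element of an arbitrary compact open level `U` (`hc : SR.COS U`). -/
theorem hex_cos [CompactSpace Y] [IsTopologicalGroup G₀] (h : Dat lam E S π c) (hU : Lev Un)
    (hc : IsCompact (U : Set G₀) ∧ IsOpen (U : Set G₀)) (ha : a ∈ h.P Un Wn)
    (hi : ∀ g, ∀ u ∈ U, a (g * u) = a g) (h0 : ∀ g, 0 ≤ a g) (hne : a ≠ 0)
    (hsum : ∀ F : Finset G₀, (∀ g ∈ F, ∀ g' ∈ F, g ≠ g' → g⁻¹ * g' ∉ U) → ∑ g ∈ F, a g ≤ 1) :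
    ∃ n e, MinP (al (G₀ := G₀) (K := K)) (h.P Un Wn) Un n e := by
  obtain ⟨n, hn⟩ := hU.bas _ (hc.2.mem_nhds U.one_mem)
  have hpos : ∀ g v, 0 ≤ RCLike.re (inner ℂ (a g v) v : ℂ) := fun g v => by
    have h1 := (ContinuousLinearMap.nonneg_iff_isPositive _).1 (h0 g)
    exact h1.re_inner_nonneg_left v
  have hsa : star a = a := funext fun g =>
    ((ContinuousLinearMap.nonneg_iff_isPositive _).1 (h0 g)).isSelfAdjoint
  have hfin : (Un n).relIndex U ≠ 0 := relIndex_ne hc.1 (hU.opn n)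
  obtain ⟨e, he, -⟩ := hex h hU ha hsa (n := n) (fun g u hu => hi g u (hn hu)) hpos
    (C := (Un n).relIndex U * 1) (fun s v => by
      rw [mul_assoc]
      refine sum_le_of_le (F := fun g => RCLike.re (inner ℂ (a g v) v : ℂ)) hn hfin
        (fun g => hpos g v) (fun g u hu => by rw [hi g u hu]) (fun F hF => ?_) s
      have h1 := (ContinuousLinearMap.nonneg_iff_isPositive _).1 (sub_nonneg.2 (hsum F hF))
      have h2 := h1.re_inner_nonneg_left v
      rw [ContinuousLinearMap.sub_apply, inner_sub_left, ContinuousLinearMap.one_apply,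
        inner_self_eq_norm_sq_to_K, ContinuousLinearMap.sum_apply, sum_inner, map_sub,
        map_sum] at h2
      have h3 : RCLike.re (((‖v‖ : ℝ) : ℂ) ^ 2) = ‖v‖ ^ 2 := by
        rw [← Complex.ofReal_pow]
        rfl
      have h4 : RCLike.re (((‖v‖ : ℝ) : ℂ) ^ 2) - ∑ g ∈ F, RCLike.re (inner ℂ (a g v) v : ℂ) ≥ 0 :=
        h2
      rw [h3] at h4
      linarith) hne
  exact ⟨n, e, he⟩

end Vale.Agent.P092.H307
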