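import Vale.Agent.P092.H307.Pow

/-!
P092, TEAM C, block [C-MOD] (helper307), part 4: existence of a minimal projection (`hex`).
-/

set_option linter.all false

namespace Vale.Agent.P092.H307

open TopologicalSpace Filter Topology Vale.Agent.P092.H820 Vale.Agent.P092.H200.Sheet
open Vale.Agent.P092.H175.T1

section SL

variable {K : Type} [NormedAddCommGroup K] [InnerProductSpace ℂ K] [CompleteSpace K]

/-- strong convergence -/
def SL (b : ℕ → (K →L[ℂ] K)) (Q : K →L[ℂ] K) : Prop :=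
  ∀ v, Tendsto (fun k => b k v) atTop (𝓝 (Q v))

variable {b b' : ℕ → (K →L[ℂ] K)} {Q Q' : K →L[ℂ] K}

theorem SL.unique (hb : SL b Q) (hb' : SL b' Q') (he : ∀ k, b k = b' k) : Q = Q' := by
  ext v
  have h1 := hb v
  have h2 := hb' v
  have h3 : (fun k => b k v) = fun k => b' k v := by
    funext k; rw [he]
  rw [h3] at h1
  exact tendsto_nhds_unique h1 h2

theorem SL.left (T : K →L[ℂ] K) (hb : SL b Q) : SL (fun k => T * b k) (T * Q) := fun v =>
  (T.continuous.tendsto _).comp (hb v)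

theorem SL.right (T : K →L[ℂ] K) (hb : SL b Q) : SL (fun k => b k * T) (Q * T) := fun v =>
  hb (T v)

theorem SL.norm_le (hb : SL b Q) {C : ℝ} (hC0 : 0 ≤ C) (hC : ∀ k, ‖b k‖ ≤ C) : ‖Q‖ ≤ C := by
  refine ContinuousLinearMap.opNorm_le_bound _ hC0 fun v => ?_
  refine le_of_tendsto (hb v).norm (Eventually.of_forall fun k => ?_)
  exact (ContinuousLinearMap.le_opNorm _ _).trans (by gcongr; exact hC k)

end SL

variable {Γ Y G₀ H₀ K : Type} [Group Γ] [TopologicalSpace Y] [MulAction Γ Y]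
  [ContinuousConstSMul Γ Y] [Group G₀] [TopologicalSpace G₀] [Group H₀]
  [NormedAddCommGroup K] [InnerProductSpace ℂ K] [CompleteSpace K]

variable {lam : Γ →* (K →L[ℂ] K)} {E : Clopens Y → (K →L[ℂ] K)} {S : Set (K →L[ℂ] K)}
  {π : H₀ →* (K →L[ℂ] K)} {c : Γ → Y → G₀} {U V : Subgroup G₀} {a x e f : G₀ → (K →L[ℂ] K)}
  {Un : ℕ → Subgroup G₀} {Wn : ℕ → Subgroup H₀} {n : ℕ}

omit [TopologicalSpace G₀] in
theorem Sh_lim {b : ℕ → G₀ → (K →L[ℂ] K)} {Q : G₀ → (K →L[ℂ] K)}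
    (hb : ∀ k, Sh lam E S c U (b k)) (hQ : ∀ g, SL (fun k => b k g) (Q g)) :
    Sh lam E S c U Q where
  inv g u hu := (hQ (g * u)).unique (hQ g) fun k => (hb k).inv g u hu
  comm g s hs := ((hQ g).left s).unique ((hQ g).right s) fun k => (hb k).comm g s hs
  commE g A := ((hQ g).left (E A)).unique ((hQ g).right (E A)) fun k => (hb k).commE g A
  eqv γ g g' A hA := ((((hQ g).right (E A)).left (lam γ)).right (lam γ⁻¹)).unique
    ((hQ g').right (E (tr γ A))) fun k => (hb k).eqv γ g g' A hA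

theorem Sh_pow (h : Dat lam E S π c) (ha : Sh lam E S c U a) (k : ℕ) :
    Sh lam E S c U (a ^ k) := by
  induction k with
  | zero => rw [pow_zero]; exact Sh.one h
  | succ k ih => rw [pow_succ]; exact ih.mul h ha

theorem lim_mem (h : Dat lam E S π c) {b : ℕ → G₀ → (K →L[ℂ] K)} {Q : G₀ → (K →L[ℂ] K)}
    (hb : ∀ᶠ n in atTop, ∀ k, Sh lam E S c (Un n) (b k))
    (hw : ∀ᶠ m in atTop, ∀ w ∈ Wn m, ∀ k g, π w * b k g * π w⁻¹ = b k g)
    {C : ℝ} (hC0 : 0 ≤ C) (hC : ∀ k g, ‖b k g‖ ≤ C) (hQ : ∀ g, SL (fun k => b k g) (Q g)) :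
    Q ∈ h.P Un Wn := by
  refine (mem_P h).2 ⟨?_, ?_, C, fun g => (hQ g).norm_le hC0 fun k => hC k g⟩
  · filter_upwards [hb] with n hn using Sh_lim hn hQ
  · filter_upwards [hw] with m hm w hw g
    exact (((hQ g).left (π w)).right (π w⁻¹)).unique (hQ g) fun k => hm w hw k g

/-- the strong limit of the even powers -/
theorem pow_lim (h : Dat lam E S π c) (hx : x ∈ h.P Un Wn) (hs : star x = x)
    (h1 : ∀ g, ‖x g‖ ≤ 1) :
    ∃ Q ∈ h.P Un Wn, (∀ g, SL (fun k => x g ^ (2 * k)) (Q g)) ∧ star Q = Q ∧ Q * Q = Q ∧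
      x * x * Q = Q := by
  have hs' : ∀ g, star (x g) = x g := fun g => congrFun hs g
  choose Q hQ h2 h3 h4 using fun g => exists_lim (hs' g) (h1 g)
  obtain ⟨e1, e2, -⟩ := (mem_P h).1 hx
  refine ⟨Q, ?_, hQ, funext h2, funext h3, funext h4⟩
  refine lim_mem h (b := fun k => x ^ (2 * k)) (C := max ‖(1 : K →L[ℂ] K)‖ 1) ?_ ?_ ?_ ?_ hQ
  · filter_upwards [e1] with n hn k using Sh_pow h hn _
  · filter_upwards [e2] with m hm w hw k g
    rw [Pi.pow_apply]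
    generalize 2 * k = j
    induction j with
    | zero => rw [pow_zero, mul_one, pi_mul_inv]
    | succ j ih =>
      calc π w * x g ^ (j + 1) * π w⁻¹ = π w * x g ^ j * 1 * (x g * π w⁻¹) := by
            rw [pow_succ]; simp only [mul_assoc, one_mul]
        _ = π w * x g ^ j * (π w⁻¹ * π w) * (x g * π w⁻¹) := by rw [pi_inv_mul]
        _ = (π w * x g ^ j * π w⁻¹) * (π w * x g * π w⁻¹) := by simp only [mul_assoc]
        _ = _ := by rw [ih, hm w hw, pow_succ]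
  · exact (norm_nonneg _).trans (le_max_left _ _)
  · intro k g
    rw [Pi.pow_apply]
    generalize 2 * k = j
    induction j with
    | zero => rw [pow_zero]; exact le_max_left _ _
    | succ j _ =>
      refine le_trans ?_ (le_max_right _ _)
      refine (norm_pow_le' _ (Nat.succ_pos j)).trans ?_
      exact pow_le_one₀ (norm_nonneg _) (h1 g)

/-- the square sums are the scalar `z` -/
def HS (U : Subgroup G₀) (x : G₀ → (K →L[ℂ] K)) (z : ℝ) : Prop :=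
  ∀ v, HasSum (fun q : G₀ ⧸ U => ‖x q.out v‖ ^ 2) (z * ‖v‖ ^ 2)

omit [TopologicalSpace G₀] in
theorem HS.le {z : ℝ} (hz : HS U x z) (hx : Inv U x) (g : G₀) (v : K) :
    ‖x g v‖ ^ 2 ≤ z * ‖v‖ ^ 2 := by
  have h1 := le_hasSum (hz v) (g : G₀ ⧸ U) fun q _ => by positivity
  rwa [hx.out] at h1

omit [TopologicalSpace G₀] in
theorem HS.norm_le {z : ℝ} (h0 : 0 ≤ z) (hz : HS U x z) (hx : Inv U x) (g : G₀) :
    ‖x g‖ ^ 2 ≤ z := by
  have h1 : ‖x g‖ ≤ Real.sqrt z := by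
    refine ContinuousLinearMap.opNorm_le_bound _ (Real.sqrt_nonneg _) fun v => ?_
    have h2 := hz.le hx g v
    rw [← Real.sqrt_sq (norm_nonneg v), ← Real.sqrt_mul h0]
    exact Real.le_sqrt_of_sq_le h2
  calc ‖x g‖ ^ 2 ≤ Real.sqrt z ^ 2 := by gcongr
    _ = z := Real.sq_sqrt h0

omit [TopologicalSpace G₀] in
theorem exists_ne (h : f ≠ 0) : ∃ g v, f g v ≠ 0 := by
  by_contra hcon
  push Not at hcon
  exact h (funext fun g => ContinuousLinearMap.ext fun v => hcon g v)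

omit [TopologicalSpace G₀] in
theorem HS.one_le {z : ℝ} (hz : HS U f z) (hf : Inv U f) (hi : f * f = f) (h0 : f ≠ 0) :
    1 ≤ z := by
  obtain ⟨g, v, hv⟩ := exists_ne h0
  have h1 := hz.le hf g (f g v)
  have h2 : f g (f g v) = f g v := DFunLike.congr_fun (congrFun hi g) v
  rw [h2] at h1
  have h3 : 0 < ‖f g v‖ ^ 2 := by positivity
  by_contra hcon
  push Not at hcon
  nlinarith


/-! ### powers -/

theorem pow_apply_le {T : K →L[ℂ] K} (h1 : ‖T‖ ≤ 1) (m : ℕ) (v : K) : ‖(T ^ m) v‖ ≤ ‖v‖ := by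
  induction m with
  | zero => rw [pow_zero]; exact le_rfl
  | succ m ih => exact (norm_pow_le h1 m v).trans ih

theorem pow_succ_apply_le {T : K →L[ℂ] K} (h1 : ‖T‖ ≤ 1) (m : ℕ) (v : K) :
    ‖(T ^ (m + 1)) v‖ ≤ ‖T v‖ := by
  rw [pow_succ]
  exact pow_apply_le h1 m (T v)

theorem norm_two_pow {T : K →L[ℂ] K} (hT : star T = T) (j : ℕ) :
    ‖T ^ 2 ^ j‖ = ‖T‖ ^ 2 ^ j := by
  have h1 := IsSelfAdjoint.nnnorm_pow_two_pow (show IsSelfAdjoint T from hT) j
  have h2 := congrArg (fun t : NNReal => (t : ℝ)) h1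
  simp only [NNReal.coe_pow, coe_nnnorm] at h2
  exact h2

theorem pow_mem_P (h : Dat lam E S π c) (hx : x ∈ h.P Un Wn) (m : ℕ) : x ^ m ∈ h.P Un Wn := by
  induction m with
  | zero => rw [pow_zero]; exact one_mem_P h
  | succ m ih => rw [pow_succ]; exact mul_mem ih hx

omit [TopologicalSpace G₀] in
theorem Inv.pow (hx : Inv U x) (m : ℕ) : Inv U (x ^ m) := fun g u hu => by
  rw [Pi.pow_apply, Pi.pow_apply, hx g u hu]

omit [TopologicalSpace G₀] in
theorem Fin2.mono (hx : Fin2 U x) {y : G₀ → (K →L[ℂ] K)} (hxy : ∀ g v, ‖y g v‖ ≤ ‖x g v‖) :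
    Fin2 U y := by
  obtain ⟨C, hC⟩ := hx
  refine ⟨C, fun s v => le_trans (Finset.sum_le_sum fun q _ => ?_) (hC s v)⟩
  exact pow_le_pow_left₀ (norm_nonneg _) (hxy _ _) 2

omit [TopologicalSpace G₀] in
theorem Fin2.smul (hx : Fin2 U x) (z : ℂ) : Fin2 U (z • x) := by
  obtain ⟨C, hC⟩ := hx
  refine ⟨‖z‖ ^ 2 * C, fun s v => ?_⟩
  have h1 : ∀ q ∈ s, ‖(z • x) q.out v‖ ^ 2 = ‖z‖ ^ 2 * ‖x q.out v‖ ^ 2 := by
    intro q _
    rw [Pi.smul_apply, ContinuousLinearMap.smul_apply, norm_smul, mul_pow]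
  rw [Finset.sum_congr rfl h1, ← Finset.mul_sum, mul_assoc]
  gcongr
  exact hC s v

/-- The limit of the powers of a normalised element is not zero. -/
theorem lim_ne [CompactSpace Y] [IsTopologicalGroup G₀] (h : Dat lam E S π c) (hU : Lev Un)
    (hx : x ∈ h.P Un Wn) (hs : star x = x) (hi : Inv (Un n) x) (hf : Fin2 (Un n) x)
    (h1 : ∀ g, ‖x g‖ ≤ 1) {gs : ℕ → G₀} (hgs : Tendsto (fun i => ‖x (gs i)‖) atTop (𝓝 1))
    {Q : G₀ → (K →L[ℂ] K)} (hQ : ∀ g, SL (fun k => x g ^ (2 * k)) (Q g)) : Q ≠ 0 := by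
  have hs' : ∀ g, star (x g) = x g := fun g => congrFun hs g
  -- a unit vector
  obtain ⟨v, hv⟩ : ∃ v : K, v ≠ 0 := by
    by_contra hcon
    push Not at hcon
    have h2 : ∀ g, ‖x g‖ = 0 := fun g => by
      rw [norm_eq_zero]
      ext v
      rw [hcon v, map_zero, map_zero]
    have h3 : (fun i => ‖x (gs i)‖) = fun _ => (0 : ℝ) := funext fun i => h2 _
    rw [h3] at hgs
    exact zero_ne_one (tendsto_nhds_unique tendsto_const_nhds hgs)
  have hv2 : 0 < ‖v‖ ^ 2 := by positivity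
  -- the powers
  have hz : ∀ j : ℕ, ∃ z : ℝ, 1 ≤ z ∧ HS (Un n) (x ^ 2 ^ (j + 1)) z := by
    intro j
    have hm : x ^ 2 ^ (j + 1) ∈ h.P Un Wn := pow_mem_P h hx _
    have hfm : Fin2 (Un n) (x ^ 2 ^ (j + 1)) := by
      refine hf.mono fun g v => ?_
      have e1 : 2 ^ (j + 1) = (2 ^ (j + 1) - 1) + 1 := by
        have := Nat.one_le_two_pow (n := j + 1)
        omega
      rw [Pi.pow_apply, e1]
      exact pow_succ_apply_le (h1 g) _ v
    obtain ⟨z, hz0, hz⟩ := exists_scalar h (germ_of_mem h hU hm) (hi.pow _) hfm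
    refine ⟨z, ?_, hz⟩
    have h2 : ∀ i, (‖x (gs i)‖ ^ 2 ^ (j + 1)) ^ 2 ≤ z := by
      intro i
      have h3 := HS.norm_le hz0 hz (hi.pow _) (gs i)
      rwa [Pi.pow_apply, norm_two_pow (hs' _)] at h3
    have h3 : Tendsto (fun i => (‖x (gs i)‖ ^ 2 ^ (j + 1)) ^ 2) atTop (𝓝 ((1 ^ 2 ^ (j + 1)) ^ 2)) :=
      (hgs.pow _).pow _
    rw [one_pow, one_pow] at h3
    exact le_of_tendsto h3 (Eventually.of_forall h2)
  obtain ⟨z, -, hz0⟩ := exists_scalar h (germ_of_mem h hU hx) hi hf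
  have hsum : Summable fun q : G₀ ⧸ Un n => ‖x q.out v‖ ^ 2 := (hz0 v).summable
  have hlim : Tendsto (fun j : ℕ => ∑' q : G₀ ⧸ Un n, ‖(x q.out ^ 2 ^ (j + 1)) v‖ ^ 2) atTop
      (𝓝 (∑' q : G₀ ⧸ Un n, ‖Q q.out v‖ ^ 2)) := by
    refine tendsto_tsum_of_dominated_convergence hsum ?_ ?_
    · intro q
      have h2 : Tendsto (fun j : ℕ => (x q.out ^ (2 * 2 ^ j)) v) atTop (𝓝 (Q q.out v)) :=
        (hQ q.out v).comp (tendsto_pow_atTop_atTop_of_one_lt (by norm_num))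
      have h3 : (fun j : ℕ => ‖(x q.out ^ 2 ^ (j + 1)) v‖ ^ 2) =
          fun j : ℕ => ‖(x q.out ^ (2 * 2 ^ j)) v‖ ^ 2 := by
        funext j
        rw [pow_succ' 2 j]
      rw [h3]
      exact h2.norm.pow 2
    · refine Eventually.of_forall fun j q => ?_
      rw [Real.norm_of_nonneg (by positivity)]
      have e1 : 2 ^ (j + 1) = (2 ^ (j + 1) - 1) + 1 := by
        have := Nat.one_le_two_pow (n := j + 1)
        omega
      rw [e1]
      exact pow_le_pow_left₀ (norm_nonneg _) (pow_succ_apply_le (h1 _) _ v) 2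
  have hge : ‖v‖ ^ 2 ≤ ∑' q : G₀ ⧸ Un n, ‖Q q.out v‖ ^ 2 := by
    refine ge_of_tendsto hlim (Eventually.of_forall fun j => ?_)
    obtain ⟨z, hz1, hz⟩ := hz j
    have h2 := (hz v).tsum_eq
    have h3 : (∑' q : G₀ ⧸ Un n, ‖(x q.out ^ 2 ^ (j + 1)) v‖ ^ 2) = z * ‖v‖ ^ 2 := h2
    rw [h3]
    nlinarith
  rintro rfl
  have h2 : (∑' q : G₀ ⧸ Un n, ‖(0 : G₀ → (K →L[ℂ] K)) q.out v‖ ^ 2) = 0 := by
    simp
  rw [h2] at hge
  linarith

/-- Below every nonzero self-adjoint element with bounded square sums there is a projection. -/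
theorem exists_proj [CompactSpace Y] [IsTopologicalGroup G₀] (h : Dat lam E S π c) (hU : Lev Un)
    (hx : x ∈ h.P Un Wn) (hs : star x = x) (hi : Inv (Un n) x) (hf : Fin2 (Un n) x)
    (h0 : x ≠ 0) :
    ∃ Q ∈ h.P Un Wn, Inv (Un n) Q ∧ Fin2 (Un n) Q ∧ star Q = Q ∧ Q * Q = Q ∧ Q ≠ 0 ∧
      ∃ r : ℂ, r ≠ 0 ∧ x * x * Q = r • Q := by
  obtain ⟨C, hC⟩ := ((mem_P h).1 hx).2.2
  have hbdd : BddAbove (Set.range fun g => ‖x g‖) := ⟨C, by rintro _ ⟨g, rfl⟩; exact hC g⟩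
  set s : ℝ := sSup (Set.range fun g => ‖x g‖) with hsdef
  obtain ⟨g₁, v₁, hgv⟩ := exists_ne h0
  have hg₁ : 0 < ‖x g₁‖ := by
    rw [norm_pos_iff]
    rintro h2
    rw [h2] at hgv
    exact hgv rfl
  have hle : ∀ g, ‖x g‖ ≤ s := fun g => le_csSup hbdd ⟨g, rfl⟩
  have hs0 : 0 < s := hg₁.trans_le (hle g₁)
  obtain ⟨u, -, hu1, hu2⟩ := exists_seq_tendsto_sSup (S := Set.range fun g => ‖x g‖)
    ⟨_, g₁, rfl⟩ hbdd
  choose gs hgs using hu2
  set y : G₀ → (K →L[ℂ] K) := ((s⁻¹ : ℝ) : ℂ) • x with hy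
  have hyP : y ∈ h.P Un Wn := SMulMemClass.smul_mem _ hx
  have hny : ∀ g, ‖y g‖ = s⁻¹ * ‖x g‖ := by
    intro g
    rw [hy, Pi.smul_apply, norm_smul, Complex.norm_real, Real.norm_of_nonneg (by positivity)]
  have hys : star y = y := by
    rw [hy, star_smul, hs]
    congr 1
    exact Complex.conj_ofReal _
  have hyi : Inv (Un n) y := fun g w hw => by
    rw [hy, Pi.smul_apply, Pi.smul_apply, hi g w hw]
  have hyf : Fin2 (Un n) y := hf.smul _
  have hy1 : ∀ g, ‖y g‖ ≤ 1 := by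
    intro g
    rw [hny, inv_mul_le_iff₀ hs0, mul_one]
    exact hle g
  have hyl : Tendsto (fun i => ‖y (gs i)‖) atTop (𝓝 1) := by
    have e1 : (fun i => ‖y (gs i)‖) = fun i => s⁻¹ * u i := by
      funext i
      rw [hny]
      congr 1
      exact hgs i
    rw [e1]
    have e2 := hu1.const_mul s⁻¹
    rwa [← hsdef, inv_mul_cancel₀ hs0.ne'] at e2
  obtain ⟨Q, hQP, hQ, hQs, hQi, hQx⟩ := pow_lim h hyP hys hy1
  have hQinv : Inv (Un n) Q := by
    intro g w hw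
    refine (hQ (g * w)).unique (hQ g) fun k => ?_
    rw [hyi g w hw]
  refine ⟨Q, hQP, hQinv, ?_, hQs, hQi, lim_ne h hU hyP hys hyi hyf hy1 hyl hQ, ((s : ℝ) : ℂ) ^ 2,
    ?_, ?_⟩
  · refine hyf.mono fun g v => ?_
    have e1 : Tendsto (fun k : ℕ => (y g ^ (2 * (k + 1))) v) atTop (𝓝 (Q g v)) :=
      (hQ g v).comp (tendsto_add_atTop_nat 1)
    refine le_of_tendsto e1.norm (Eventually.of_forall fun k => ?_)
    exact pow_succ_apply_le (hy1 g) (2 * k + 1) v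
  · exact pow_ne_zero _ (by exact_mod_cast hs0.ne')
  · have e1 : x = ((s : ℝ) : ℂ) • y := by
      rw [hy, smul_smul, ← Complex.ofReal_mul, mul_inv_cancel₀ hs0.ne', Complex.ofReal_one,
        one_smul]
    have e2 : x * x * Q = (((s : ℝ) : ℂ) ^ 2) • (y * y * Q) := by
      rw [e1, smul_mul_smul_comm, smul_mul_assoc, pow_two]
    rw [e2, hQx]

end Vale.Agent.P092.H307
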