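import Vale.Agent.P092.H307.Hex

/-!
P092, TEAM C, block [C-MOD] (helper307), part 5: the theorem `hex`.
-/

set_option linter.all false

namespace Vale.Agent.P092.H307

open TopologicalSpace Filter Topology Vale.Agent.P092.H820 Vale.Agent.P092.H200.Sheet
open Vale.Agent.P092.H175.T1

variable {Γ Y G₀ H₀ K : Type} [Group Γ] [TopologicalSpace Y] [MulAction Γ Y]
  [ContinuousConstSMul Γ Y] [Group G₀] [TopologicalSpace G₀] [Group H₀]
  [NormedAddCommGroup K] [InnerProductSpace ℂ K] [CompleteSpace K]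

variable {lam : Γ →* (K →L[ℂ] K)} {E : Clopens Y → (K →L[ℂ] K)} {S : Set (K →L[ℂ] K)}
  {π : H₀ →* (K →L[ℂ] K)} {c : Γ → Y → G₀} {U V : Subgroup G₀} {a x e f : G₀ → (K →L[ℂ] K)}
  {Un : ℕ → Subgroup G₀} {Wn : ℕ → Subgroup H₀} {n : ℕ}

/-- Projections of finite size in the algebra. -/
structure Pr (h : Dat lam E S π c) (Un : ℕ → Subgroup G₀) (Wn : ℕ → Subgroup H₀) (n : ℕ)
    (e : G₀ → (K →L[ℂ] K)) : Prop where
  mem : e ∈ h.P Un Wn
  inv : Inv (Un n) e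
  fin : Fin2 (Un n) e
  sa : star e = e
  idem : e * e = e
  ne : e ≠ 0

omit [TopologicalSpace G₀] in
theorem mul_inv (hx : Inv U x) (hy : Inv U f) : Inv U (x * f) := fun g u hu => by
  rw [Pi.mul_apply, Pi.mul_apply, hx g u hu, hy g u hu]

/-- Pythagoras for projections -/
theorem pyth {p q : K →L[ℂ] K} (hp : star p = p) (hp2 : p * p = p) (hq : star q = q)
    (hpq : p * q = q) (hq2 : q * q = q) (v : K) : ‖p v‖ ^ 2 = ‖q v‖ ^ 2 + ‖(p - q) v‖ ^ 2 := by
  have h1 : p v = q v + (p - q) v := by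
    rw [ContinuousLinearMap.sub_apply]; abel
  have h2 : q * (p - q) = 0 := by
    have h3 := congrArg star hpq
    rw [star_mul, hp, hq] at h3
    rw [mul_sub, h3, hq2, sub_self]
  have h3 : (inner ℂ (q v) ((p - q) v) : ℂ) = 0 := by
    rw [sa_inner hq]
    have h4 : q ((p - q) v) = 0 := DFunLike.congr_fun h2 v
    rw [h4, inner_zero_right]
  rw [h1, norm_add_sq (𝕜 := ℂ), h3]
  simp

/-- a proper subprojection is smaller by at least one -/
theorem Pr.add_one_le [CompactSpace Y] [IsTopologicalGroup G₀] {h : Dat lam E S π c}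
    (he : Pr h Un Wn n e) (hf : Pr h Un Wn n f) (hef : e * f = f) (hne : f ≠ e)
    {z z' : ℝ} (hz : HS (Un n) e z) (hz' : HS (Un n) f z') : z' + 1 ≤ z := by
  have hfe : f * e = f := by
    have h3 := congrArg star hef
    rwa [star_mul, he.sa, hf.sa] at h3
  have h1 : ∀ g v, ‖e g v‖ ^ 2 = ‖f g v‖ ^ 2 + ‖(e - f) g v‖ ^ 2 := fun g v =>
    pyth (congrFun he.sa g) (congrFun he.idem g) (congrFun hf.sa g) (congrFun hef g)
      (congrFun hf.idem g) v
  have h2 : HS (Un n) (e - f) (z - z') := by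
    intro v
    have h3 := (hz v).sub (hz' v)
    have h4 : (z - z') * ‖v‖ ^ 2 = z * ‖v‖ ^ 2 - z' * ‖v‖ ^ 2 := by ring
    rw [h4]
    refine h3.congr_fun ?_
    intro q
    rw [h1]
    ring
  have h3 : Inv (Un n) (e - f) := fun g u hu => by
    rw [Pi.sub_apply, Pi.sub_apply, he.inv g u hu, hf.inv g u hu]
  have h4 : (e - f) * (e - f) = e - f := by
    rw [mul_sub, sub_mul, sub_mul, he.idem, hfe, hef, hf.idem, sub_self, sub_zero]
  have h5 := HS.one_le h2 h3 h4 (sub_ne_zero.2 fun h => hne h.symm)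
  linarith

/-- A projection of finite size without proper subprojections. -/
theorem exists_min [CompactSpace Y] [IsTopologicalGroup G₀] (h : Dat lam E S π c) (hU : Lev Un)
    (hx : x ∈ h.P Un Wn) (hs : star x = x) (hi : Inv (Un n) x) (hf : Fin2 (Un n) x)
    (h0 : x ≠ 0) :
    ∃ e, Pr h Un Wn n e ∧ ∀ f, Pr h Un Wn n f → e * f = f → f = e := by
  classical
  obtain ⟨Q, hQ1, hQ2, hQ3, hQ4, hQ5, hQ6, -⟩ := exists_proj h hU hx hs hi hf h0
  have hex : ∃ m : ℕ, ∃ e, Pr h Un Wn n e ∧ ∃ z : ℝ, HS (Un n) e z ∧ z ≤ m := by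
    obtain ⟨z, -, hz⟩ := exists_scalar h (germ_of_mem h hU hQ1) hQ2 hQ3
    obtain ⟨m, hm⟩ := exists_nat_ge z
    exact ⟨m, Q, ⟨hQ1, hQ2, hQ3, hQ4, hQ5, hQ6⟩, z, hz, hm⟩
  obtain ⟨e, he, z, hz, hzm⟩ := Nat.find_spec hex
  refine ⟨e, he, fun f hf hef => ?_⟩
  by_contra hne
  obtain ⟨z', -, hz'⟩ := exists_scalar h (germ_of_mem h hU hf.mem) hf.inv hf.fin
  have h1 := he.add_one_le hf hef hne hz hz'
  have h2 := HS.one_le hz' hf.inv hf.idem hf.ne
  have h3 : Nat.find hex ≠ 0 := by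
    intro h4
    rw [h4, Nat.cast_zero] at hzm
    linarith
  refine Nat.find_min hex (Nat.sub_one_lt h3) ⟨f, hf, z', hz', ?_⟩
  rw [Nat.cast_sub (Nat.one_le_iff_ne_zero.2 h3), Nat.cast_one]
  linarith

theorem Fin2.mul_le (hf : Fin2 U e) {C : ℝ} (hC : ∀ g, ‖x g‖ ≤ C) : Fin2 U (x * e) := by
  obtain ⟨D, hD⟩ := hf
  refine ⟨C ^ 2 * D, fun s v => ?_⟩
  have h1 : ∀ q ∈ s, ‖(x * e) q.out v‖ ^ 2 ≤ C ^ 2 * ‖e q.out v‖ ^ 2 := by
    intro q _
    have h2 : ‖x q.out (e q.out v)‖ ≤ C * ‖e q.out v‖ :=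
      (ContinuousLinearMap.le_opNorm _ _).trans (by gcongr; exact hC _)
    calc ‖(x * e) q.out v‖ ^ 2 ≤ (C * ‖e q.out v‖) ^ 2 :=
          pow_le_pow_left₀ (norm_nonneg _) h2 2
      _ = _ := by ring
  refine (Finset.sum_le_sum h1).trans ?_
  rw [← Finset.mul_sum, mul_assoc]
  gcongr
  exact hD s v

/-- **Existence of a minimal projection**, from an element with bounded square sums. -/
theorem minP_of_fin2 [CompactSpace Y] [IsTopologicalGroup G₀] (h : Dat lam E S π c)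
    (hU : Lev Un) (ha : a ∈ h.P Un Wn) (hs : star a = a) (hi : Inv (Un n) a)
    (hf : Fin2 (Un n) a) (h0 : a ≠ 0) :
    ∃ e, MinP (al (G₀ := G₀) (K := K)) (h.P Un Wn) Un n e ∧ Fin2 (Un n) e := by
  obtain ⟨e, he, hmin⟩ := exists_min h hU ha hs hi hf h0
  have hQn : ∀ x, x ∈ Qn (al (G₀ := G₀) (K := K)) (h.P Un Wn) Un n →
      x ∈ h.P Un Wn ∧ Inv (Un n) x := by
    rintro x ⟨h1, h2⟩
    exact ⟨h1, fun g u hu => congrFun (h2 u hu) g⟩
  have heQ : e ∈ Qn (al (G₀ := G₀) (K := K)) (h.P Un Wn) Un n :=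
    ⟨he.mem, fun u hu => funext fun g => he.inv g u hu⟩
  have hcor : e ∈ Cor (al (G₀ := G₀) (K := K)) (h.P Un Wn) Un n e := ⟨heQ, he.idem, he.idem⟩
  -- squares of self-adjoint elements are scalars
  have hsq : ∀ x ∈ Cor (al (G₀ := G₀) (K := K)) (h.P Un Wn) Un n e, star x = x →
      ∃ r : ℂ, x * x = r • e := by
    intro x hx hxs
    by_cases hx0 : x = 0
    · exact ⟨0, by rw [hx0, mul_zero, zero_smul]⟩
    obtain ⟨hxP, hxi⟩ := hQn x hx.1
    obtain ⟨C, hC⟩ := ((mem_P h).1 hxP).2.2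
    have hxf : Fin2 (Un n) x := by
      have := he.fin.mul_le hC
      rwa [hx.2.2] at this
    obtain ⟨Q, hQ1, hQ2, hQ3, hQ4, hQ5, hQ6, r, hr0, hr⟩ := exists_proj h hU hxP hxs hxi hxf hx0
    have hQ : Q = e := by
      refine hmin Q ⟨hQ1, hQ2, hQ3, hQ4, hQ5, hQ6⟩ ?_
      have h1 : Q = r⁻¹ • (x * x * Q) := by rw [hr, smul_smul, inv_mul_cancel₀ hr0, one_smul]
      rw [h1, mul_smul_comm, ← mul_assoc, ← mul_assoc, hx.2.1]
    refine ⟨r, ?_⟩
    rw [hQ, mul_assoc, hx.2.2] at hr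
    exact hr
  -- self-adjoint elements are scalars
  have hsa : ∀ x ∈ Cor (al (G₀ := G₀) (K := K)) (h.P Un Wn) Un n e, star x = x →
      ∃ r : ℂ, x = r • e := by
    intro x hx hxs
    obtain ⟨r, hr⟩ := hsq x hx hxs
    obtain ⟨r', hr'⟩ := hsq (x + e) (add_mem hx hcor) (by rw [star_add, hxs, he.sa])
    have h1 : (x + e) * (x + e) = x * x + (2 : ℂ) • x + e := by
      rw [add_mul, mul_add, mul_add, hx.2.1, hx.2.2, he.idem, two_smul]
      abel
    rw [h1, hr] at hr'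
    refine ⟨(1 / 2) * (r' - r - 1), ?_⟩
    have h2 : (2 : ℂ) • x = (r' - r - 1) • e := by
      rw [sub_smul, sub_smul, one_smul, ← hr']
      abel
    rw [mul_smul, ← h2, smul_smul]
    norm_num
  refine ⟨e, ⟨heQ, he.sa, he.idem, he.ne, fun x hx => ?_⟩, he.fin⟩
  have hxs : star x ∈ Cor (al (G₀ := G₀) (K := K)) (h.P Un Wn) Un n e := Cor_star he.sa hx
  obtain ⟨r, hr⟩ := hsa (x + star x) (add_mem hx hxs) (by rw [star_add, star_star, add_comm])
  obtain ⟨r', hr'⟩ := hsa (Complex.I • (x - star x))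
    (Submodule.smul_mem _ _ (sub_mem hx hxs)) (by
      rw [star_smul, star_sub, star_star, ← neg_sub (x) (star x), smul_neg, ← neg_smul]
      congr 1
      change -(starRingEnd ℂ Complex.I) = Complex.I
      rw [Complex.conj_I, neg_neg])
  refine ⟨(1 / 2) * (r - Complex.I * r'), ?_⟩
  have h1 : x - star x = (-Complex.I * r') • e := by
    rw [mul_smul, ← hr', smul_smul, neg_mul, Complex.I_mul_I, neg_neg, one_smul]
  have h2 : (2 : ℂ) • x = (r - Complex.I * r') • e := by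
    have h3 : (2 : ℂ) • x = (x + star x) + (x - star x) := by rw [two_smul]; abel
    rw [h3, hr, h1, ← add_smul]
    congr 1
    ring
  rw [mul_smul, ← h2, smul_smul]
  norm_num

/-- **hex**: existence of a minimal projection, from a positive element with bounded sums over
cosets. -/
theorem hex [CompactSpace Y] [IsTopologicalGroup G₀] (h : Dat lam E S π c)
    (hU : Lev Un) (ha : a ∈ h.P Un Wn) (hs : star a = a) (hi : Inv (Un n) a)
    (hp : ∀ g v, 0 ≤ RCLike.re (inner ℂ (a g v) v : ℂ))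
    {C : ℝ} (hC : ∀ (s : Finset (G₀ ⧸ Un n)) (v : K),
      ∑ q ∈ s, RCLike.re (inner ℂ (a q.out v) v : ℂ) ≤ C * ‖v‖ ^ 2) (h0 : a ≠ 0) :
    ∃ e, MinP (al (G₀ := G₀) (K := K)) (h.P Un Wn) Un n e ∧ Fin2 (Un n) e := by
  refine minP_of_fin2 h hU ha hs hi ?_ h0
  obtain ⟨D, hD⟩ := ((mem_P h).1 ha).2.2
  have hD' : ∀ g, ‖a g‖ ≤ max D 1 := fun g => (hD g).trans (le_max_left _ _)
  have hD0 : 0 < max D 1 := lt_of_lt_of_le one_pos (le_max_right _ _)
  refine ⟨max D 1 * C, fun s v => ?_⟩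
  calc ∑ q ∈ s, ‖a q.out v‖ ^ 2
      ≤ ∑ q ∈ s, max D 1 * RCLike.re (inner ℂ (a q.out v) v : ℂ) :=
        Finset.sum_le_sum fun q _ =>
          sq_le_of_pos (congrFun hs _) (hp _) hD0 (hD' _) v
    _ = max D 1 * ∑ q ∈ s, RCLike.re (inner ℂ (a q.out v) v : ℂ) := by rw [Finset.mul_sum]
    _ ≤ max D 1 * (C * ‖v‖ ^ 2) := by gcongr; exact hC s v
    _ = _ := by ring

end Vale.Agent.P092.H307
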