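import Vale.Agent.P092.H307.Sca

/-!
P092, TEAM C, block [C-MOD] (helper307), part 3: strong limits of powers of self-adjoint
contractions, and of elements of the residue algebra.
-/

set_option linter.all false

namespace Vale.Agent.P092.H307

open TopologicalSpace Filter Topology Vale.Agent.P092.H820 Vale.Agent.P092.H200.Sheet

section Pow

variable {K : Type} [NormedAddCommGroup K] [InnerProductSpace ℂ K] [CompleteSpace K]


theorem sa_inner {x : K →L[ℂ] K} (hx : star x = x) (v w : K) : (inner ℂ (x v) w) = (inner ℂ v (x w)) := by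
  have h1 := ContinuousLinearMap.adjoint_inner_left x w v
  rw [← ContinuousLinearMap.star_eq_adjoint, hx] at h1
  exact h1

theorem sa_pow {x : K →L[ℂ] K} (hx : star x = x) (m : ℕ) : star (x ^ m) = x ^ m := by
  rw [star_pow, hx]

theorem inner_pow {x : K →L[ℂ] K} (hx : star x = x) (i j : ℕ) (v : K) :
    (inner ℂ ((x ^ i) v) ((x ^ j) v)) = (inner ℂ ((x ^ (i + j)) v) v) := by
  rw [← sa_inner (sa_pow hx j), pow_add]
  have h1 : (x ^ j) ((x ^ i) v) = (x ^ i * x ^ j) v := by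
    have h2 : x ^ j * x ^ i = x ^ i * x ^ j := by rw [← pow_add, ← pow_add, add_comm]
    exact DFunLike.congr_fun h2 v
  rw [h1]

theorem norm_pow_le {x : K →L[ℂ] K} (h1 : ‖x‖ ≤ 1) (m : ℕ) (v : K) :
    ‖(x ^ (m + 1)) v‖ ≤ ‖(x ^ m) v‖ := by
  rw [pow_succ']
  change ‖x ((x ^ m) v)‖ ≤ _
  calc ‖x ((x ^ m) v)‖ ≤ ‖x‖ * ‖(x ^ m) v‖ := x.le_opNorm _
    _ ≤ 1 * ‖(x ^ m) v‖ := by gcongr
    _ = _ := one_mul _

/-- The powers `x ^ (2 k)` of a self-adjoint contraction converge strongly to a projection. -/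
theorem exists_lim {x : K →L[ℂ] K} (hx : star x = x) (h1 : ‖x‖ ≤ 1) :
    ∃ Q : K →L[ℂ] K, (∀ v, Tendsto (fun k : ℕ => (x ^ (2 * k)) v) atTop (𝓝 (Q v))) ∧
      star Q = Q ∧ Q * Q = Q ∧ x * x * Q = Q := by
  have hanti : ∀ v, Antitone fun m : ℕ => ‖(x ^ m) v‖ ^ 2 := by
    intro v
    refine antitone_nat_of_succ_le fun m => ?_
    exact pow_le_pow_left₀ (norm_nonneg _) (norm_pow_le h1 m v) 2
  have hlim : ∀ v, ∃ w, Tendsto (fun k : ℕ => (x ^ (2 * k)) v) atTop (𝓝 w) := by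
    intro v
    obtain ⟨L, hL⟩ : ∃ L, Tendsto (fun m : ℕ => ‖(x ^ m) v‖ ^ 2) atTop (𝓝 L) :=
      ⟨_, tendsto_atTop_ciInf (hanti v) ⟨0, by rintro _ ⟨m, rfl⟩; positivity⟩⟩
    have hLle : ∀ m, L ≤ ‖(x ^ m) v‖ ^ 2 := fun m => (hanti v).le_of_tendsto hL m
    refine cauchySeq_tendsto_of_complete ?_
    refine cauchySeq_of_le_tendsto_0
      (fun N => Real.sqrt (2 * (‖(x ^ (2 * N)) v‖ ^ 2 - L))) ?_ ?_
    · intro k l N hk hl
      rw [dist_eq_norm]
      refine Real.le_sqrt_of_sq_le ?_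
      have e1 : ‖(x ^ (2 * k)) v - (x ^ (2 * l)) v‖ ^ 2 =
          ‖(x ^ (2 * k)) v‖ ^ 2 - 2 * ‖(x ^ (k + l)) v‖ ^ 2 + ‖(x ^ (2 * l)) v‖ ^ 2 := by
        rw [norm_sub_sq (𝕜 := ℂ), inner_pow hx]
        have e2 : 2 * k + 2 * l = (k + l) + (k + l) := by ring
        rw [e2, ← inner_pow hx, inner_self_eq_norm_sq]
      rw [e1]
      have e3 : ‖(x ^ (2 * k)) v‖ ^ 2 ≤ ‖(x ^ (2 * N)) v‖ ^ 2 := hanti v (by omega)
      have e4 : ‖(x ^ (2 * l)) v‖ ^ 2 ≤ ‖(x ^ (2 * N)) v‖ ^ 2 := hanti v (by omega)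
      have e5 := hLle (k + l)
      linarith
    · have e1 : Tendsto (fun N : ℕ => ‖(x ^ (2 * N)) v‖ ^ 2) atTop (𝓝 L) :=
        hL.comp (tendsto_id.const_mul_atTop' (by norm_num : 0 < 2))
      have e2 : Tendsto (fun N : ℕ => 2 * (‖(x ^ (2 * N)) v‖ ^ 2 - L)) atTop (𝓝 0) := by
        have := (e1.sub_const L).const_mul 2
        simpa using this
      have e3 := (Real.continuous_sqrt.tendsto 0).comp e2
      rw [Real.sqrt_zero] at e3
      exact e3
  choose f hf using hlim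
  have hf' : Tendsto (fun (k : ℕ) (v : K) => (x ^ (2 * k)) v) atTop (𝓝 f) :=
    tendsto_pi_nhds.2 hf
  let Q : K →L[ℂ] K := continuousLinearMapOfTendsto (fun k : ℕ => x ^ (2 * k)) hf'
  have hQ : ∀ v, Tendsto (fun k : ℕ => (x ^ (2 * k)) v) atTop (𝓝 (Q v)) := hf
  have hxQ : x * x * Q = Q := by
    ext v
    have e1 : Tendsto (fun k : ℕ => (x * x) ((x ^ (2 * k)) v)) atTop (𝓝 ((x * x) (Q v))) :=
      ((x * x).continuous.tendsto _).comp (hQ v)
    have e2 : Tendsto (fun k : ℕ => (x ^ (2 * (k + 1))) v) atTop (𝓝 (Q v)) :=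
      (hQ v).comp (tendsto_add_atTop_nat 1)
    have e3 : (fun k : ℕ => (x * x) ((x ^ (2 * k)) v)) = fun k : ℕ => (x ^ (2 * (k + 1))) v := by
      funext k
      have : x * x * x ^ (2 * k) = x ^ (2 * (k + 1)) := by
        rw [← pow_two, ← pow_add]; congr 1; ring
      exact DFunLike.congr_fun this v
    rw [e3] at e1
    exact tendsto_nhds_unique e1 e2
  refine ⟨Q, hQ, ?_, ?_, hxQ⟩
  · rw [ContinuousLinearMap.star_eq_adjoint, eq_comm, ContinuousLinearMap.eq_adjoint_iff]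
    intro v w
    have e1 : Tendsto (fun k : ℕ => (inner ℂ ((x ^ (2 * k)) v) w)) atTop (𝓝 (inner ℂ (Q v) w)) :=
      (hQ v).inner tendsto_const_nhds
    have e2 : Tendsto (fun k : ℕ => (inner ℂ v ((x ^ (2 * k)) w))) atTop (𝓝 (inner ℂ v (Q w))) :=
      tendsto_const_nhds.inner (hQ w)
    have e3 : (fun k : ℕ => (inner ℂ ((x ^ (2 * k)) v) w)) = fun k : ℕ => (inner ℂ v ((x ^ (2 * k)) w)) :=
      funext fun k => sa_inner (sa_pow hx _) v w
    rw [e3] at e1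
    exact tendsto_nhds_unique e1 e2
  · ext v
    have e1 := hQ (Q v)
    have e2 : (fun k : ℕ => (x ^ (2 * k)) (Q v)) = fun _ => Q v := by
      funext k
      induction k with
      | zero => simp
      | succ k ih =>
        have e3 : x ^ (2 * (k + 1)) = x ^ (2 * k) * (x * x) := by
          rw [← pow_two, ← pow_add]; congr 1
        rw [e3]
        change (x ^ (2 * k)) ((x * x) (Q v)) = Q v
        have e4 : (x * x) (Q v) = Q v := DFunLike.congr_fun hxQ v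
        rw [e4, ih]
    rw [e2] at e1
    exact tendsto_nhds_unique e1 tendsto_const_nhds

/-- `‖a v‖² ≤ ‖a‖ ⟨a v, v⟩` for positive `a`. -/
theorem sq_le_of_pos {T : K →L[ℂ] K} (hT : star T = T) (hp : ∀ v, 0 ≤ RCLike.re (inner ℂ (T v) v))
    {C : ℝ} (hC : 0 < C) (hTC : ‖T‖ ≤ C) (v : K) : ‖T v‖ ^ 2 ≤ C * RCLike.re (inner ℂ (T v) v) := by
  have h0 : ∀ u, RCLike.re (inner ℂ (T u) u) ≤ C * ‖u‖ ^ 2 := by
    intro u
    calc RCLike.re (inner ℂ (T u) u) ≤ ‖(inner ℂ (T u) u)‖ := RCLike.re_le_norm _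
      _ ≤ ‖T u‖ * ‖u‖ := norm_inner_le_norm _ _
      _ ≤ (‖T‖ * ‖u‖) * ‖u‖ := by gcongr; exact T.le_opNorm _
      _ ≤ (C * ‖u‖) * ‖u‖ := by gcongr
      _ = _ := by ring
  have h1 := h0 (T v)
  have h2 := hp ((C : ℂ) • v - T v)
  have h3 : RCLike.re (inner ℂ (T ((C : ℂ) • v - T v)) ((C : ℂ) • v - T v)) =
      C ^ 2 * RCLike.re (inner ℂ (T v) v) - 2 * C * ‖T v‖ ^ 2 +
        RCLike.re (inner ℂ (T (T v)) (T v)) := by
    have e1 : (inner ℂ (T ((C : ℂ) • v - T v)) ((C : ℂ) • v - T v) : ℂ) =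
        (C : ℂ) * ((C : ℂ) * inner ℂ (T v) v) - (C : ℂ) * inner ℂ (T v) (T v) -
          ((C : ℂ) * inner ℂ (T (T v)) v - inner ℂ (T (T v)) (T v)) := by
      rw [map_sub, map_smul, inner_sub_left, inner_sub_right, inner_sub_right, inner_smul_left,
        inner_smul_left, inner_smul_right, inner_smul_right, Complex.conj_ofReal]
    have e2 : (inner ℂ (T (T v)) v : ℂ) = inner ℂ (T v) (T v) := sa_inner hT (T v) v
    have e3 : (inner ℂ (T v) (T v) : ℂ) = ((‖T v‖ ^ 2 : ℝ) : ℂ) := by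
      rw [inner_self_eq_norm_sq_to_K]; norm_num
    rw [e1, e2, e3]
    simp only [RCLike.re_to_complex, Complex.sub_re, Complex.re_ofReal_mul, Complex.ofReal_re]
    ring
  rw [h3] at h2
  have h4 : C * ‖T v‖ ^ 2 ≤ C * (C * RCLike.re (inner ℂ (T v) v)) := by
    nlinarith
  exact le_of_mul_le_mul_left h4 hC

end Pow

end Vale.Agent.P092.H307
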