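import Vale.Agent.P092.H307.Erg

/-!
P092, TEAM C, block [C-MOD] (helper307), part 2: the square sums over `G₀ ⧸ U` of an element of the
residue algebra are scalars.
-/

set_option linter.all false

namespace Vale.Agent.P092.H307

open TopologicalSpace Filter Topology Vale.Agent.P092.H820 Vale.Agent.P092.H200.Sheet

section Sum

variable {K : Type} [NormedAddCommGroup K] [InnerProductSpace ℂ K] [CompleteSpace K]


/-- A family of operators with bounded square sums has a Gram operator. -/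
theorem exists_gram {I : Type} (B : I → K →L[ℂ] K) {C : ℝ}
    (hC : ∀ (s : Finset I) (v : K), ∑ i ∈ s, ‖B i v‖ ^ 2 ≤ C * ‖v‖ ^ 2) :
    ∃ T : K →L[ℂ] K, ∀ v w, HasSum (fun i => (inner ℂ (B i v) (B i w))) (inner ℂ (T v) w) := by
  classical
  have hp : (2 : ENNReal).toReal = 2 := by norm_num
  have hsum : ∀ v, Summable fun i => ‖B i v‖ ^ 2 := fun v =>
    summable_of_sum_le (fun i => by positivity) (fun s => hC s v)
  have hmem : ∀ v, Memℓp (fun i => B i v) (2 : ENNReal) := by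
    intro v
    refine memℓp_gen ?_
    rw [hp]
    simpa using hsum v
  let J0 : K →ₗ[ℂ] lp (fun _ : I => K) 2 :=
    { toFun := fun v => ⟨fun i => B i v, hmem v⟩
      map_add' := fun v w => by
        ext i
        exact map_add (B i) v w
      map_smul' := fun z v => by
        ext i
        exact map_smul (B i) z v }
  have hJ0 : ∀ v i, (J0 v : I → K) i = B i v := fun v i => rfl
  have hbd : ∀ v, ‖J0 v‖ ≤ Real.sqrt (max C 0) * ‖v‖ := by
    intro v
    have h1 : ‖J0 v‖ ^ 2 = ∑' i, ‖B i v‖ ^ 2 := by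
      have h2 := lp.norm_rpow_eq_tsum (p := (2 : ENNReal)) (by norm_num) (J0 v)
      rw [hp] at h2
      simpa [hJ0] using h2
    have h2 : ‖J0 v‖ ^ 2 ≤ max C 0 * ‖v‖ ^ 2 := by
      rw [h1]
      refine (hsum v).tsum_le_of_sum_le fun s => (hC s v).trans ?_
      gcongr
      exact le_max_left _ _
    have h3 : 0 ≤ max C 0 := le_max_right _ _
    calc ‖J0 v‖ = Real.sqrt (‖J0 v‖ ^ 2) := (Real.sqrt_sq (norm_nonneg _)).symm
      _ ≤ Real.sqrt (max C 0 * ‖v‖ ^ 2) := Real.sqrt_le_sqrt h2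
      _ = _ := by rw [Real.sqrt_mul h3, Real.sqrt_sq (norm_nonneg _)]
  let J : K →L[ℂ] lp (fun _ : I => K) 2 := J0.mkContinuous _ hbd
  refine ⟨ContinuousLinearMap.adjoint J ∘L J, fun v w => ?_⟩
  have h1 : (inner ℂ ((ContinuousLinearMap.adjoint J ∘L J) v) w) = (inner ℂ (J v) (J w)) := by
    rw [ContinuousLinearMap.comp_apply, ContinuousLinearMap.adjoint_inner_left]
  rw [h1]
  exact lp.hasSum_inner (J v) (J w)

/-- The Gram operator commutes with what commutes with the family. -/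
theorem gram_comm {I : Type} {B : I → K →L[ℂ] K} {T A : K →L[ℂ] K}
    (hT : ∀ v w, HasSum (fun i => (inner ℂ (B i v) (B i w))) (inner ℂ (T v) w))
    (h1 : ∀ i, A * B i = B i * A) (h2 : ∀ i, star A * B i = B i * star A) : A * T = T * A := by
  refine ContinuousLinearMap.ext fun v => ext_inner_right ℂ fun w => ?_
  have h3 := hT (A v) w
  have h4 := hT v (star A w)
  have h5 : ∀ i, (inner ℂ (B i (A v)) (B i w)) = (inner ℂ (B i v) (B i (star A w))) := by
    intro i
    have e1 : B i (A v) = A (B i v) := (DFunLike.congr_fun (h1 i) v).symm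
    have e2 : B i (star A w) = star A (B i w) := (DFunLike.congr_fun (h2 i) w).symm
    rw [e1, e2, ContinuousLinearMap.star_eq_adjoint, ContinuousLinearMap.adjoint_inner_right]
  rw [funext h5] at h3
  have h6 := h3.unique h4
  change (inner ℂ (A (T v)) w) = (inner ℂ (T (A v)) w)
  rw [h6, ContinuousLinearMap.star_eq_adjoint, ContinuousLinearMap.adjoint_inner_right]

end Sum

variable {Γ Y G₀ H₀ K : Type} [Group Γ] [TopologicalSpace Y] [MulAction Γ Y]
  [ContinuousConstSMul Γ Y] [Group G₀] [TopologicalSpace G₀] [Group H₀]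
  [NormedAddCommGroup K] [InnerProductSpace ℂ K] [CompleteSpace K]

variable {lam : Γ →* (K →L[ℂ] K)} {E : Clopens Y → (K →L[ℂ] K)} {S : Set (K →L[ℂ] K)}
  {π : H₀ →* (K →L[ℂ] K)} {c : Γ → Y → G₀} {U V : Subgroup G₀} {a b f : G₀ → (K →L[ℂ] K)}


/-- right invariance under `U` -/
def Inv (U : Subgroup G₀) (a : G₀ → (K →L[ℂ] K)) : Prop := ∀ g, ∀ u ∈ U, a (g * u) = a g

/-- bounded square sums over `G₀ ⧸ U` -/
def Fin2 (U : Subgroup G₀) (a : G₀ → (K →L[ℂ] K)) : Prop :=
  ∃ C : ℝ, ∀ (s : Finset (G₀ ⧸ U)) (v : K), ∑ q ∈ s, ‖a q.out v‖ ^ 2 ≤ C * ‖v‖ ^ 2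

omit [TopologicalSpace G₀] in
theorem Inv.out (ha : Inv U a) (g : G₀) : a ((g : G₀ ⧸ U).out) = a g := by
  obtain ⟨u, hu⟩ := QuotientGroup.mk_out_eq_mul U g
  rw [hu]
  exact ha g _ u.2

theorem lam_norm (h : Dat lam E S π c) (γ : Γ) (v : K) : ‖lam γ v‖ = ‖v‖ := by
  have h1 : (inner ℂ (lam γ v) (lam γ v)) = (inner ℂ v v) := by
    rw [← ContinuousLinearMap.adjoint_inner_right, ← ContinuousLinearMap.star_eq_adjoint,
      h.lam_star]
    have h2 : lam γ⁻¹ (lam γ v) = v := by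
      have := DFunLike.congr_fun (pi_inv_mul lam γ) v
      exact this
    rw [h2]
  rw [inner_self_eq_norm_sq_to_K, inner_self_eq_norm_sq_to_K] at h1
  have h2 : ‖lam γ v‖ ^ 2 = ‖v‖ ^ 2 := by exact_mod_cast h1
  exact (sq_eq_sq₀ (norm_nonneg _) (norm_nonneg _)).1 h2

/-- Pythagoras for the two parts of a vector -/
theorem norm_split (h : Dat lam E S π c) {A B : Clopens Y} (hd : Disjoint A B)
    {T : K →L[ℂ] K} (hT : ∀ A, E A * T = T * E A) (v : K) :
    ‖T (E (A ⊔ B) v)‖ ^ 2 = ‖T (E A v)‖ ^ 2 + ‖T (E B v)‖ ^ 2 := by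
  have h1 : T (E (A ⊔ B) v) = T (E A v) + T (E B v) := by
    rw [h.cpv.add hd, ContinuousLinearMap.add_apply, map_add]
  have h2 : (inner ℂ (T (E A v)) (T (E B v))) = 0 := by
    have e1 : T (E A v) = E A (T (E A v)) := by
      have := DFunLike.congr_fun (hT A) (E A v)
      change E A (T (E A v)) = T (E A (E A v)) at this
      have h3 : E A (E A v) = E A v := DFunLike.congr_fun (h.cpv.idem A) v
      rw [this, h3]
    have e2 : T (E B v) = E B (T (E B v)) := by
      have := DFunLike.congr_fun (hT B) (E B v)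
      change E B (T (E B v)) = T (E B (E B v)) at this
      have h3 : E B (E B v) = E B v := DFunLike.congr_fun (h.cpv.idem B) v
      rw [this, h3]
    rw [e1, e2, ← ContinuousLinearMap.adjoint_inner_right, ← ContinuousLinearMap.star_eq_adjoint,
      h.cpv.sa]
    have h4 : E A (E B (T (E B v))) = 0 := by
      have := DFunLike.congr_fun (h.cpv.disj hd) (T (E B v))
      exact this
    rw [h4, inner_zero_right]
  rw [h1, norm_add_sq (𝕜 := ℂ), h2]
  simp

/-- The square sums do not decrease under `λ`. -/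
theorem sum_le_lam [CompactSpace Y] (h : Dat lam E S π c) (ha : Germ lam E S c a)
    (hU : Inv U a) {T : K →L[ℂ] K}
    (hT : ∀ v w, HasSum (fun q : G₀ ⧸ U => (inner ℂ (a q.out v) (a q.out w))) (inner ℂ (T v) w)) (γ : Γ)
    (s : Finset (G₀ ⧸ U)) (v : K) :
    ∑ q ∈ s, ‖a q.out v‖ ^ 2 ≤ RCLike.re (inner ℂ (T (lam γ v)) (lam γ v)) := by
  classical
  have hq : ∀ v, HasSum (fun q : G₀ ⧸ U => ‖a q.out v‖ ^ 2) (RCLike.re (inner ℂ (T v) v)) := by
    intro v
    have h1 := (hT v v).mapL (RCLike.reCLM (K := ℂ))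
    simpa [inner_self_eq_norm_sq_to_K, ← Complex.ofReal_pow] using h1
  have key : ∀ v, ∑ q ∈ s, ‖a q.out (E ⊤ v)‖ ^ 2 ≤
      RCLike.re (inner ℂ (T (lam γ (E ⊤ v))) (lam γ (E ⊤ v))) := by
    refine clopen_ind (Q := fun A => ∀ v, ∑ q ∈ s, ‖a q.out (E A v)‖ ^ 2 ≤
      RCLike.re (inner ℂ (T (lam γ (E A v))) (lam γ (E A v)))) ?_ ?_ ?_ ?_
    · intro y
      -- one clopen set for all `q ∈ s`
      have h1 : ∃ A : Clopens Y, y ∈ A ∧ ∀ q ∈ s,
          lam γ * (a q.out * E A) * lam γ⁻¹ = a (c γ y * q.out) * E (tr γ A) := by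
        induction s using Finset.induction_on with
        | empty => exact ⟨⊤, trivial, fun q hq => absurd hq (Finset.notMem_empty q)⟩
        | insert q s hqs ih =>
          obtain ⟨A, hy, hA⟩ := ih
          obtain ⟨B, hyB, hB⟩ := ha.eqv γ q.out y
          refine ⟨A ⊓ B, ⟨hy, hyB⟩, fun r hr => ?_⟩
          rcases Finset.mem_insert.1 hr with rfl | hr
          · exact Germ.eqv_le h ha inf_le_right hB
          · exact Germ.eqv_le h ha inf_le_left (hA r hr)
      obtain ⟨A, hy, hA⟩ := h1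
      refine ⟨A, hy, fun v => ?_⟩
      have h2 : ∀ q ∈ s, ‖a q.out (E A v)‖ ^ 2 =
          ‖a (((c γ y * q.out : G₀) : G₀ ⧸ U).out) (lam γ (E A v))‖ ^ 2 := by
        intro q hqs
        rw [hU.out, move h (hA q hqs), lam_norm h]
      rw [Finset.sum_congr rfl h2]
      have hinj : Set.InjOn (fun q : G₀ ⧸ U => ((c γ y * q.out : G₀) : G₀ ⧸ U)) s := by
        intro q _ r _ hqr
        have h3 : ((c γ y * q.out : G₀) : G₀ ⧸ U) = ((c γ y * r.out : G₀) : G₀ ⧸ U) := hqr
        rw [QuotientGroup.eq] at h3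
        have h4 : (c γ y * q.out)⁻¹ * (c γ y * r.out) = q.out⁻¹ * r.out := by group
        rw [h4, ← QuotientGroup.eq, QuotientGroup.out_eq', QuotientGroup.out_eq'] at h3
        exact h3
      rw [← Finset.sum_image (f := fun r : G₀ ⧸ U => ‖a r.out (lam γ (E A v))‖ ^ 2) hinj]
      exact sum_le_hasSum _ (fun i _ => by positivity) (hq _)
    · intro A B hBA hA v
      have h1 : E B v = E A (E B v) := (DFunLike.congr_fun (h.cpv.le_right hBA) v).symm
      rw [h1]
      exact hA _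
    · intro A B hd hA hB v
      have h1 : ∀ q : G₀ ⧸ U, ‖a q.out (E (A ⊔ B) v)‖ ^ 2 =
          ‖a q.out (E A v)‖ ^ 2 + ‖a q.out (E B v)‖ ^ 2 := fun q =>
        norm_split h hd (fun A => ha.commE _ A) v
      have hd' : Disjoint (tr γ A) (tr γ B) := by
        rw [disjoint_iff] at hd ⊢
        rw [← tr_inf, hd, tr_bot]
      have h3 : ∀ A v, lam γ (E A v) = E (tr γ A) (lam γ v) := fun A v =>
        DFunLike.congr_fun (lam_E' h γ A) v
      have h4 : RCLike.re (inner ℂ (T (lam γ (E (A ⊔ B) v))) (lam γ (E (A ⊔ B) v))) =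
          RCLike.re (inner ℂ (T (lam γ (E A v))) (lam γ (E A v))) +
          RCLike.re (inner ℂ (T (lam γ (E B v))) (lam γ (E B v))) := by
        refine (hq _).unique ?_
        have h5 := (hq (lam γ (E A v))).add (hq (lam γ (E B v)))
        refine h5.congr_fun ?_ 
        intro q
        rw [h3, h3, h3, tr_sup]
        exact (norm_split h hd' (fun A => ha.commE _ A) _)
      rw [Finset.sum_congr rfl fun q _ => h1 q, Finset.sum_add_distrib, h4]
      exact add_le_add (hA v) (hB v)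
    · intro v
      rw [h.cpv.bot]
      simp
  have h1 := key v
  rw [h.cpv.top] at h1
  exact h1

/-- **The square sums are scalars.** -/
theorem exists_scalar [CompactSpace Y] (h : Dat lam E S π c) (ha : Germ lam E S c a)
    (hU : Inv U a) (hf : Fin2 U a) :
    ∃ z : ℝ, 0 ≤ z ∧ ∀ v, HasSum (fun q : G₀ ⧸ U => ‖a q.out v‖ ^ 2) (z * ‖v‖ ^ 2) := by
  obtain ⟨C, hC⟩ := hf
  obtain ⟨T, hT⟩ := exists_gram (fun q : G₀ ⧸ U => a q.out) hC
  have hq : ∀ v, HasSum (fun q : G₀ ⧸ U => ‖a q.out v‖ ^ 2) (RCLike.re (inner ℂ (T v) v)) := by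
    intro v
    have h1 := (hT v v).mapL (RCLike.reCLM (K := ℂ))
    simpa [inner_self_eq_norm_sq_to_K, ← Complex.ofReal_pow] using h1
  have hreal : ∀ v, (inner ℂ (T v) v) = ((RCLike.re (inner ℂ (T v) v) : ℝ) : ℂ) := by
    intro v
    have h1 : HasSum (fun q : G₀ ⧸ U => ((‖a q.out v‖ ^ 2 : ℝ) : ℂ))
        ((RCLike.re (inner ℂ (T v) v) : ℝ) : ℂ) := Complex.hasSum_ofReal.2 (hq v)
    have h2 : (fun q : G₀ ⧸ U => (inner ℂ (a q.out v) (a q.out v))) =
        fun q : G₀ ⧸ U => ((‖a q.out v‖ ^ 2 : ℝ) : ℂ) := by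
      funext q
      rw [inner_self_eq_norm_sq_to_K]
      norm_cast
    have h3 := hT v v
    rw [h2] at h3
    exact h3.unique h1
  have hle : ∀ γ v, RCLike.re (inner ℂ (T v) v) ≤ RCLike.re (inner ℂ (T (lam γ v)) (lam γ v)) := fun γ v =>
    hasSum_le_of_sum_le (hq v) fun s => sum_le_lam h ha hU hT γ s v
  have hinv : ∀ γ v, lam γ⁻¹ (lam γ v) = v := fun γ v =>
    DFunLike.congr_fun (pi_inv_mul lam γ) v
  have heq : ∀ γ v, (inner ℂ (T (lam γ v)) (lam γ v)) = (inner ℂ (T v) v) := by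
    intro γ v
    rw [hreal, hreal v]
    congr 1
    refine le_antisymm ?_ (hle γ v)
    have := hle γ⁻¹ (lam γ v)
    rwa [hinv] at this
  have hcl : ∀ γ, lam γ * T = T * lam γ := by
    intro γ
    have h1 : lam γ⁻¹ * T * lam γ = T := by
      have h2 : ((lam γ⁻¹ * T * lam γ : K →L[ℂ] K) : K →ₗ[ℂ] K) = (T : K →ₗ[ℂ] K) := by
        rw [← ext_inner_map]
        intro v
        change (inner ℂ (lam γ⁻¹ (T (lam γ v))) v) = (inner ℂ (T v) v)
        rw [← h.lam_star, ContinuousLinearMap.star_eq_adjoint,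
          ContinuousLinearMap.adjoint_inner_left, heq]
      exact ContinuousLinearMap.coe_injective h2
    calc lam γ * T = lam γ * (lam γ⁻¹ * T * lam γ) := by rw [h1]
      _ = (lam γ * lam γ⁻¹) * (T * lam γ) := by simp only [mul_assoc]
      _ = T * lam γ := by rw [pi_mul_inv, one_mul]
  obtain ⟨z, hz⟩ := h.erg T
    (fun s hs => gram_comm hT (fun q => ha.comm _ s hs) fun q => ha.comm _ _ (h.S_star s hs)) hcl
  have hzv : ∀ v, RCLike.re (inner ℂ (T v) v) = z.re * ‖v‖ ^ 2 := by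
    intro v
    rw [hz]
    change ((inner ℂ (z • v) v) : ℂ).re = _
    rw [inner_smul_left, inner_self_eq_norm_sq_to_K]
    simp [← Complex.ofReal_pow]
  refine ⟨max z.re 0, le_max_right _ _, fun v => ?_⟩
  have h1 := hq v
  rw [hzv] at h1
  rcases eq_or_ne v 0 with rfl | hv
  · simpa using h1
  · have h2 : 0 ≤ z.re * ‖v‖ ^ 2 := h1.nonneg fun q => by positivity
    have h3 : 0 < ‖v‖ ^ 2 := by positivity
    have h4 : 0 ≤ z.re := nonneg_of_mul_nonneg_left h2 h3
    rwa [max_eq_left h4]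

end Vale.Agent.P092.H307
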